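import Vale.Agent.P223B.Sg
import Vale.Agent.P223F.Ut
import Vale.Agent.P210D.Drift
import Vale.Agent.P210V.MixR

/-!
# P223Q: the move of the drift and the mixing for random fields
-/

open Filter Topology Set Finset
open scoped ContDiff
open Vale.Agent.P366M Vale.Agent.P366M.Gr Vale.Agent.P366M.Y.C Vale.Agent.P366M.Y.C.GbH
open Vale.Agent.P210G Vale.Agent.P210T Vale.Agent.P210R Vale.Agent.P210D Vale.Agent.P210V
open Vale.Agent.P223Y Vale.Agent.P223F Vale.Agent.P223A Vale.Agent.P223B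

noncomputable section

namespace Vale.Agent.P223Q

section Pt

variable {n : ℕ} {M : Type} [Mf0 n M]

/-- the move of the drift -/
def da (κ : ℝ → ℝ) (c α r₀ : ℝ) (g : Fld n M) (w : ℕ → M → ℝ) (m : ℕ) (χ : M → ℝ) :
    Fin n → M → ℝ :=
  fl (gs g w m) fun i y => c * (κ (aa g w m y / α) * χ y) * yv g w m (ff r₀ w m) i y

theorem drift_x : ∃ C ≥ (1 : ℝ), ∃ κ : ℝ → ℝ, ∀ (n : ℕ) (M : Type) [Mf0 n M] (g : Fld n M)
    (w : ℕ → M → ℝ) (m : ℕ) (χ : M → ℝ) (q c α r₀ : ℝ), 1 ≤ n → Met g → (∀ j, Smooth (w j)) →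
    (∀ j x, 0 < w j x) → Smooth χ → (∀ x, 0 ≤ χ x ∧ χ x ≤ 1) → 0 ≤ q → q ≤ 1 → 0 < c →
    C * n * c ≤ 1 → 0 < α → C * α ≤ 1 → 0 < r₀ → CC ∞ (da κ c α r₀ g w m χ) ∧
    ∀ v : Fin n → M → ℝ, CC ∞ v → ∀ (x : M) (l : ℝ), α ≤ l → l ≤ 1 →
      Rv (gs g w m) v x +
        (if aa g w m x ≤ 4 * α then χ x * c * aa g w m x ^ 2 / (4 * n * P210R.rr r₀ w m x) else 0) -
        (∑ j ∈ range m, hq q (gs g w j) (w j) x) / 2 -
        l * ∑ j ∈ range m, P210R.yy (gs g w j) (w j) x ^ 2 -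
        l * ∑ j ∈ range m, Dv (gs g w m) v (nv (gs g w j) (w j)) x ^ 2 -
        C * (c + c ^ 2 / l) * α * ip (gs g w m) (ff r₀ w m) (ff r₀ w m) x -
        C * c * (aa g w m x ^ 2 / α) * ip (gs g w m) χ χ x ≤
      Rv (gs g w m) (fun i y => v i y + da κ c α r₀ g w m χ i y) x := by
  obtain ⟨κ, D, κs, κ0, κ1, κ2, κ3⟩ := exists_cut
  refine ⟨2000 + 524288 * D ^ 2, by nlinarith [sq_nonneg D], κ,
    fun n M _ g w m χ q c α r₀ hn hg hw hp hχ χ0 q0 q1 c0 c1 α0 α1 hr => ?_⟩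
  have hG := met_gs hg hw m
  have sf := sm_ff hw hr m
  have sY := cv_yv hg hw sf m
  have sa : Smooth fun y => aa g w m y / α := CD.div_const (sm_aa hg hw m) α
  have sk : Smooth fun y => κ (aa g w m y / α) := κs.compM sa
  have sψ : Smooth fun y => c * (κ (aa g w m y / α) * χ y) := CD.mul cd_const (CD.mul sk hχ)
  have sX := CV.smul sψ sY
  refine ⟨cc_fl hG sX, fun v hv x l l0 l1 => ?_⟩
  unfold da
  have dκ := (κs.differentiable (by simp) (aa g w m x / α)).hasDerivAt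
  have e1 : ev (df fun y => c * (κ (aa g w m y / α) * χ y)) (yv g w m (ff r₀ w m)) x =
      c * (deriv κ (aa g w m x / α) * χ x * ev (df (aa g w m)) (yv g w m (ff r₀ w m)) x / α +
        κ (aa g w m x / α) * ev (df χ) (yv g w m (ff r₀ w m)) x) := by
    rw [ev_lin (s := c * (deriv κ (aa g w m x / α) * χ x / α)) (t := c * κ (aa g w m x / α))
      (b := df (aa g w m)) (c := df χ) fun i => by
        rw [df, pd_const_mul, pd_mul (sk.diff x) (hχ.diff x),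
          pd_comp (f := fun y => aa g w m y / α) dκ (sa.diff x)]
        simp only [div_eq_mul_inv, pd_mul_const, df]
        ring]
    ring
  have e2 : gq (gs g w m) (fun i y => c * (κ (aa g w m y / α) * χ y) * yv g w m (ff r₀ w m) i y)
      (fun i y => c * (κ (aa g w m y / α) * χ y) * yv g w m (ff r₀ w m) i y) x =
      (c * κ (aa g w m x / α) * χ x) ^ 2 *
        gq (gs g w m) (yv g w m (ff r₀ w m)) (yv g w m (ff r₀ w m)) x := by
    simp only [gq, Finset.mul_sum]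
    exact Finset.sum_congr rfl fun _ _ => Finset.sum_congr rfl fun _ _ => by ring
  rw [Rv_add hG (dV_sh hG hv x) (dV_sh hG (cc_fl hG sX) x), sh_fl hG, iv_fl hG, e2,
    Dv_smul hG (sψ.diff x) (sY.dv (by simp) x), e1, Dv_yv hg hw hG sf]
  have Q0 : 0 ≤ ∑ j ∈ range m, hq q (gs g w j) (w j) x :=
    sum_nonneg fun j _ => hq_nn (met_gs hg hw j) (hw j) q x
  have Y0 : 0 ≤ ∑ j ∈ range m, P210R.yy (gs g w j) (w j) x ^ 2 := sum_nonneg fun _ _ => sq_nonneg _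
  have H0 : 0 ≤ ∑ j ∈ range m, Dv (gs g w m) v (nv (gs g w j) (w j)) x ^ 2 :=
    sum_nonneg fun _ _ => sq_nonneg _
  have F0 := hG.ip_nonneg (ff r₀ w m) x
  have I0 := hG.ip_nonneg χ x
  have a0 := aa_nn hg hw m x
  have l2 : 0 < l := α0.trans_le l0
  have n1 : (1 : ℝ) ≤ n := by exact_mod_cast hn
  by_cases h : aa g w m x ≤ 8 * α
  · have α2 := (alg_c rfl n1 c0 c1 α0 α1).2.2.2
    have ht : th g w m x ≤ 1 / 2 := by linarith [th_le_aa hg hw m x]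
    obtain ⟨A, B, E, h1, h2, h3, h4⟩ := s2_ge hg hw ht hp q0 q1 hn hr
    have h5 : (∑ j ∈ range m, dn (gs g w j) (w j) (ff r₀ w m) x *
        Dv (gs g w m) v (nv (gs g w j) (w j)) x) ^ 2 ≤ _ := (sum_mul_sq_le_sq_mul_sq _ _ _).trans
      (mul_le_mul_of_nonneg_right (dn_sum_le hg hw _ x) H0)
    have k := fin_alg rfl n1 c0 c1 α0 α1 l0 l1 (rr_pos hr w m x) a0 (aa_le_th hg hw m x)
      (th_le_aa hg hw m x) h (hg.ip_nonneg _ x) (iv_two hg hw ht le_rfl (df (ff r₀ w m))) I0 Q0 Y0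
      H0 (κ0 (aa g w m x / α)).1 (κ0 _).2 (κ3 _ (div_nonneg a0 α0.le) ((div_le_iff₀ α0).2 h))
      (χ0 x).1 (χ0 x).2 h1 h2 h3 h4 h5 (gq_nonneg hG _ x) (gq_yv hg hw ht _)
      (ev_aa hg hw q0 q1 _ x) (ev_cs hG (df χ) _ x)
    rw [iv_df] at k
    split_ifs with h'
    · rw [κ1 _ ((div_le_iff₀ α0).2 h')] at k ⊢
      rw [one_mul (χ x)] at k
      linarith
    · have : 0 ≤ κ (aa g w m x / α) * χ x * c * aa g w m x ^ 2 / (4 * n * rr r₀ w m x) := by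
        have := (κ0 (aa g w m x / α)).1
        have := (χ0 x).1
        have := rr_pos hr w m x
        positivity
      linarith
  · obtain ⟨z1, z2⟩ := κ2 _ ((lt_div_iff₀ α0).2 (not_le.1 h))
    rw [if_neg (by linarith), z1, z2, zero_mul (χ x), zero_mul, zero_div]
    have p1 : 0 ≤ (2000 + 524288 * D ^ 2) * (c + c ^ 2 / l) * α *
        ip (gs g w m) (ff r₀ w m) (ff r₀ w m) x := by positivity
    have p2 : 0 ≤ (2000 + 524288 * D ^ 2) * c * (aa g w m x ^ 2 / α) * ip (gs g w m) χ χ x := by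
      positivity
    linarith [mul_nonneg l2.le Y0, mul_nonneg l2.le H0]

omit [Mf0 n M] in
/-- the mixed family before the normalisation -/
def mL (ζ : ℝ → ℝ) (r₀ : ℝ) (t p : ℕ → M → ℝ) (m : ℕ) (Y : M → ℝ) (j : ℕ) (y : M) : ℝ :=
  ζ (t j y / √(P210R.rr r₀ t m y + Y y)) ^ 2 + (P210R.rr r₀ t m y + Y y)⁻¹ * (r₀ + Y y) * p j y

omit [Mf0 n M] in
/-- the mixed family -/
def mK (ζ : ℝ → ℝ) (r₀ : ℝ) (t p : ℕ → M → ℝ) (m : ℕ) (Y : M → ℝ) (j : ℕ) (y : M) : ℝ :=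
  (∑ i ∈ range m, mL ζ r₀ t p m Y i y)⁻¹ * mL ζ r₀ t p m Y j y

theorem mix_x {r₀ d : ℝ} (hr : 0 < r₀) (hd : 0 < d) : ∃ ζ : ℝ → ℝ, ∀ (G : Fld n M)
    (t p : ℕ → M → ℝ) (m : ℕ) (Y : M → ℝ) (η : ℝ), Met G → (∀ j, Smooth (t j)) →
    (∀ j x, 0 < t j x) → Dis p m → Smooth Y → (∀ x, 0 < Y x) → η ≤ 1 → 8 * m * d ≤ η * √r₀ →
    Dis (mK ζ r₀ t p m Y) m ∧ (∀ j x, t j x ≤ d → p j x = 0 → mK ζ r₀ t p m Y j x = 0) ∧ ∀ x,
    (∀ j, mK ζ r₀ t p m Y j x ≤
      (1 + η) * ((t j x ^ 2 + (r₀ + Y x) * p j x) / (P210R.rr r₀ t m x + Y x))) ∧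
    En G (mK ζ r₀ t p m Y) m x ≤ (1 + η) *
      ((∑ j ∈ range m, ip G (t j) (t j) x + fi G Y x) / (P210R.rr r₀ t m x + Y x) -
      ip G (fun y => P210R.rr r₀ t m y + Y y) (fun y => P210R.rr r₀ t m y + Y y) x /
        (4 * (P210R.rr r₀ t m x + Y x) ^ 2) +
        (r₀ + Y x) / (P210R.rr r₀ t m x + Y x) * En G p m x) := by
  have hs := Real.sqrt_pos.2 hr
  obtain ⟨ζ, sζ, z0, z1, z2⟩ := exists_zeta (div_pos hd hs)
  refine ⟨ζ, fun G t p m Y η hG ht t0 hp hY Y0 hη hm => ?_⟩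
  obtain ⟨R, hR⟩ : ∃ R : M → ℝ, R = fun y => P210R.rr r₀ t m y + Y y := ⟨_, rfl⟩
  have eR : ∀ y, R y = ∑ j ∈ range m, t j y ^ 2 + (r₀ + Y y) := fun y => by
    rw [hR]; simp only [P210R.rr]; ring
  have a0 : ∀ y, 0 < r₀ + Y y := fun y => add_pos hr (Y0 y)
  have s0 : ∀ y, 0 ≤ ∑ j ∈ range m, t j y ^ 2 := fun y => sum_nonneg fun _ _ => sq_nonneg _
  have R1 : ∀ y, r₀ ≤ R y := fun y => by linarith [eR y, s0 y, Y0 y]
  have R0 : ∀ y, 0 < R y := fun y => hr.trans_le (R1 y)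
  have sR : Smooth R := by
    rw [funext eR]; exact CD.add (CD.sum fun j _ => CD.pow (ht j) 2) (CD.add cd_const hY)
  obtain ⟨u, hu⟩ : ∃ u : ℕ → M → ℝ, u = fun j y => t j y / √(R y) := ⟨_, rfl⟩
  have q0 : ∀ y, 0 < √(R y) := fun y => Real.sqrt_pos.2 (R0 y)
  have su : ∀ j, Smooth (u j) := fun j => by
    rw [hu]; exact CD.div (ht j) (CD.sqrt sR fun y => (R0 y).ne') fun y => (q0 y).ne'
  have u0 : ∀ j y, 0 < u j y := fun j y => by rw [hu]; exact div_pos (t0 j y) (q0 y)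
  have u2 : ∀ j y, u j y ^ 2 = (R y)⁻¹ * t j y ^ 2 := fun j y => by
    rw [hu]; beta_reduce; rw [div_pow, Real.sq_sqrt (R0 y).le, inv_mul_eq_div]
  obtain ⟨a, ha⟩ : ∃ a : M → ℝ, a = fun y => (R y)⁻¹ * (r₀ + Y y) := ⟨_, rfl⟩
  have sa : Smooth a := by
    rw [ha]; exact CD.mul (CD.inv sR fun y => (R0 y).ne') (CD.add cd_const hY)
  have b0 : ∀ y, 0 < a y := fun y => by rw [ha]; exact mul_pos (inv_pos.2 (R0 y)) (a0 y)
  have one : ∀ y, ∑ j ∈ range m, u j y ^ 2 + a y = 1 := fun y => by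
    simp only [u2, ha, ← mul_sum, ← mul_add, ← eR]
    exact inv_mul_cancel₀ (R0 y).ne'
  obtain ⟨L, hL⟩ : ∃ L : ℕ → M → ℝ, L = fun j y => ζ (u j y) ^ 2 + a y * p j y := ⟨_, rfl⟩
  have sz : ∀ j, Smooth fun y => ζ (u j y) := fun j => sζ.compM (su j)
  have sL : ∀ j, Smooth (L j) := fun j => by
    rw [hL]; exact CD.add (CD.pow (sz j) 2) (CD.mul sa (hp.sm j))
  have L0 : ∀ j y, 0 ≤ L j y := fun j y => by
    rw [hL]; exact add_nonneg (sq_nonneg _) (mul_nonneg (b0 y).le (hp.nn j y))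
  obtain ⟨N, hN⟩ : ∃ N : M → ℝ, N = fun y => ∑ j ∈ range m, L j y := ⟨_, rfl⟩
  have η0 : 0 ≤ η := nonneg_of_mul_nonneg_left (le_trans (by positivity) hm) hs
  have N1 : ∀ y, 1 - η / 2 ≤ N y := fun y => by
    have h1 : ∀ j ∈ range m, u j y ^ 2 - 4 * (d / √r₀) ≤ ζ (u j y) ^ 2 := fun j hj => by
      have h2 : u j y ^ 2 ≤ ∑ j ∈ range m, u j y ^ 2 :=
        single_le_sum (f := fun j => u j y ^ 2) (fun _ _ => sq_nonneg _) hj
      have h3 : u j y ≤ 1 := by nlinarith [one y, b0 y, u0 j y]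
      have h4 := zeta_sq (u0 j y).le (div_pos hd hs).le (z2 (u j y)).1 (z2 (u j y)).2.1
      nlinarith [div_pos hd hs]
    have h2 := sum_le_sum h1
    have h3 : m * (4 * (d / √r₀)) ≤ η / 2 := by
      rw [← mul_div_assoc, ← mul_div_assoc, div_le_iff₀ hs]; linarith
    simp only [hN, hL, sum_add_distrib, ← mul_sum, hp.one]
    simp only [sum_sub_distrib, sum_const, card_range, nsmul_eq_mul] at h2
    linarith [one y]
  have N0 : ∀ y, 0 < N y := fun y => by linarith [N1 y]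
  have N2 : ∀ y, (N y)⁻¹ ≤ 1 + η := fun y => by
    rw [inv_le_iff_one_le_mul₀ (N0 y)]; nlinarith [N1 y]
  have sN : Smooth N := by rw [hN]; exact CD.sum fun j _ => sL j
  rw [show mK ζ r₀ t p m Y = fun j y => (N y)⁻¹ * L j y by rw [hN, hL, hu, ha, hR]; rfl]
  refine ⟨⟨fun j => CD.mul (CD.inv sN fun y => (N0 y).ne') (sL j),
    fun j y => mul_nonneg (inv_pos.2 (N0 y)).le (L0 j y), fun y => ?_⟩, fun j x h1 h2 => ?_,
    fun x => ⟨fun j => ?_, ?_⟩⟩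
  · rw [← mul_sum, ← congrFun hN y]
    exact inv_mul_cancel₀ (N0 y).ne'
  · have h3 : u j x ≤ d / √r₀ := by
      rw [hu]; exact div_le_div₀ hd.le h1 hs (Real.sqrt_le_sqrt (R1 x))
    simp only [hL, z0 _ h3, h2]
    simp
  · refine mul_le_mul (N2 x) ?_ (L0 j x) (by linarith)
    have h1 := pow_le_pow_left₀ (z2 (u j x)).1 ((z2 (u j x)).2.2 (u0 j x).le) 2
    rw [← congrFun hR x, ← inv_mul_eq_div, mul_add, ← u2, ← mul_assoc, ← congrFun ha x, hL]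
    linarith
  · rw [← congrFun hR x, ← hR]
    have h1 : En G (fun j y => (N y)⁻¹ * L j y) m x = _ := fi_norm hG (range m)
      (fun j _ => (sL j).diff x) (fun j _ => L0 j) (congrFun hN) (N0 x).ne'
    have h2 : ∀ j ∈ range m, fi G (L j) x ≤
        fi G (fun y => (R y)⁻¹ * t j y ^ 2) x + fi G (fun y => a y * p j y) x := fun j _ => by
      have e1 := fi_add_le hG (x := x) (((sz j).diff x).pow 2) ((sa.diff x).mul ((hp.sm j).diff x))
        (fun _ => sq_nonneg _) fun y => mul_nonneg (b0 y).le (hp.nn j y)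
      have e2 := fi_sq_le hG ((sz j).diff x)
      have e3 := (sζ.differentiable (by simp) (u j x)).hasDerivAt
      rw [ip_comp e3 e3 ((su j).diff x) ((su j).diff x)] at e2
      have e4 := fi_sq (g := G) ((su j).diff x) (u0 j x).ne'
      simp only [u2] at e4
      have e5 : deriv ζ (u j x) * deriv ζ (u j x) ≤ 1 :=
        mul_le_one₀ (z1 _).2 (z1 _).1 (z1 _).2
      have e6 := mul_le_mul_of_nonneg_right e5 (hG.ip_nonneg (u j) x)
      rw [hL]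
      linarith
    have h3 := sum_le_sum h2
    have h4 : ∑ j ∈ range m, fi G (fun y => a y * p j y) x = _ :=
      REn_mul hG hp (sa.diff x) (b0 x).ne'
    have dR := (sR.diff x).inv (R0 x).ne'
    have h5 := fi_sum_mul hG (range m) (A := fun j y => t j y ^ 2) dR
      (fun j _ => ((ht j).diff x).pow 2) (inv_ne_zero (R0 x).ne') fun _ _ _ => sq_nonneg _
    have h6 := fi_mul hG dR ((hY.diff x).const_add r₀) (inv_ne_zero (R0 x).ne') fun y => (a0 y).le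
    have h7 := fi_inv (g := G) (sR.diff x) (R0 x).ne'
    have h8 : ip G R (fun y => (R y)⁻¹) x =
        ip G (fun y => ∑ j ∈ range m, t j y ^ 2) (fun y => (R y)⁻¹) x +
          ip G (fun y => r₀ + Y y) (fun y => (R y)⁻¹) x := by
      rw [← ip_add_left (DAt.fun_sum fun j _ => ((ht j).diff x).pow 2) ((hY.diff x).const_add r₀),
        ← funext eR]
    have h9 := mul_le_mul_of_nonneg_left
      (fi_const_add hG hr.le (hY.diff x) fun y => (Y0 y).le) (inv_pos.2 (R0 x)).le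
    rw [sum_congr rfl fun j _ => fi_sq ((ht j).diff x) (t0 j x).ne'] at h5
    rw [← ha] at h6
    rw [sum_add_distrib, h4, h5, h6] at h3
    have h10 : ∑ j ∈ range m, fi G (L j) x ≤
        (∑ j ∈ range m, ip G (t j) (t j) x + fi G Y x) / R x - ip G R R x / (4 * R x ^ 2) +
          (r₀ + Y x) / R x * En G p m x := by
      rw [← inv_mul_eq_div, ← inv_mul_eq_div (R x) (r₀ + Y x), ← congrFun ha x, mul_add]
      rw [eR x, add_mul, ← eR x] at h7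
      linarith
    have h11 : 0 ≤ ∑ j ∈ range m, fi G (L j) x := sum_nonneg fun j _ => fi_nonneg hG (L0 j x)
    have h12 : 0 ≤ ip G N N x / (4 * N x ^ 2) := div_nonneg (hG.ip_nonneg _ _) (by positivity)
    have h13 := mul_le_mul (N2 x) h10 h11 (by linarith)
    rw [inv_mul_eq_div] at h13
    linarith

end Pt

variable {n : ℕ} {X : Type} [Mf0 n X] {Γ : Type} [Group Γ] [MulAction Γ X] {F : Fr Γ}
  {g : F.Ω → Fld n X} {u f Q : F.Ω → X → ℝ} {v a : F.Ω → Fin n → X → ℝ} {w : ℕ → F.Ω → X → ℝ}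

theorem rn_sum {ι : Type} (s : Finset ι) {w : ι → F.Ω → X → ℝ} (h : ∀ j ∈ s, Rn F (w j)) :
    Rn F fun o x => ∑ j ∈ s, w j o x :=
  ⟨fun o x => ((eventually_all_finset s).2 fun i q => (h i q).tr o x).mono fun _ =>
    sum_congr rfl, fun γ o x => sum_congr rfl fun j q => (h j q).inv γ o x⟩

theorem rn_ev {ι V : Type} {σ : F.Ω → X → ι → V} (h : Rn F σ) (i : ι) :
    Rn F fun o x => σ o x i := rn_map h (· i)

theorem rn_rr (hw : ∀ j, Rn F (w j)) (r₀ : ℝ) (m : ℕ) :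
    Rn F fun o => P210R.rr r₀ (fun j => w j o) m :=
  rn_map (rn_sum (range m) fun j _ => rn_map (hw j) (· ^ 2)) (r₀ + ·)

theorem rn_fl (hg : Rn F g) (ha : Rn F fun o x i => a o i x) :
    Rn F fun o x i => fl (g o) (a o) i x :=
  rn_map₂ hg ha fun G A i => ∑ j, G i j * A j

section

variable (d : Deck X Γ) (hg : Rn F g) (hu : Rn F u)
include d hg hu

theorem rn_gb : Rn F fun o => gb (g o) 1 (u o) := ⟨tr_gb hg.tr hu.tr, inv_gb d hg.inv hu.inv⟩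

theorem rn_a2 : Rn F fun o => a2 (g o) (u o) := ⟨tr_a2 hg.tr hu.tr, inv_a2 d hg.inv hu.inv⟩

theorem rn_ww : Rn F fun o => ww (g o) 1 (u o) :=
  rn_map (rn_ip d hg hu hu) fun a => √(1 + 1 ^ 2 * a)

theorem rn_lw : Rn F fun o => lw (g o) (u o) := rn_map (rn_ww d hg hu) Real.log

theorem rn_uu : Rn F fun o => uu (g o) (u o) := rn_map (rn_ww d hg hu) (·⁻¹)

theorem rn_fi : Rn F fun o => fi (g o) (u o) := rn_map₂ (rn_ip d hg hu hu) hu fun a b => a / (4 * b)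

theorem rn_dn (hf : Rn F f) : Rn F fun o => dn (g o) (u o) (f o) :=
  rn_map₂ (rn_ip d hg hu hf) (rn_ww d hg hu) (· / ·)

theorem rn_nv : Rn F fun o x i => nv (g o) (u o) i x := by
  have := rn_map₂ (rn_prod hg (rn_pd d hu)) (rn_ww d hg hu) fun a b i =>
    (∑ j, (show Matrix (Fin n) (Fin n) ℝ from a.1)⁻¹ i j * a.2 j) / b
  exact this

theorem rn_vg (hv : Rn F fun o x i => v o i x) : Rn F fun o x i => vg (g o) (v o) (u o) i x :=
  rn_map₂ hv (rn_pd d (rn_lw d hg hu)) fun a b i => a i + b i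

end

section

variable (d : Deck X Γ) (hg : Rn F g) (hw : ∀ j, Rn F (w j))
include d hg hw

theorem rn_gs : ∀ m, Rn F fun o => gs (g o) (fun j => w j o) m
  | 0 => hg
  | m + 1 => rn_gb d (rn_gs m) (hw m)

theorem rn_aa (m : ℕ) : Rn F fun o => aa (g o) (fun j => w j o) m :=
  rn_sum (range m) fun j _ => rn_map (rn_uu d (rn_gs d hg hw j) (hw j)) (1 - ·)

theorem rn_En (m : ℕ) : Rn F fun o => En (g o) (fun j => w j o) m :=
  rn_sum (range m) fun j _ => rn_fi d hg (hw j)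

theorem rn_da (hu : Rn F u) (κ : ℝ → ℝ) (c α r₀ : ℝ) (m : ℕ) :
    Rn F fun o x i => da κ c α r₀ (g o) (fun j => w j o) m (u o) i x :=
  rn_fl (rn_gs d hg hw m) (rn_pi fun i => rn_map₂ (rn_map₂ (rn_aa d hg hw m) hu fun a b =>
    c * (κ (a / α) * b)) (rn_sum (range m) fun j _ => rn_map₂ (rn_dn d (rn_gs d hg hw j) (hw j)
      (rn_map (rn_rr hw r₀ m) fun a => Real.log a / 2)) (rn_ev (rn_nv d (rn_gs d hg hw j) (hw j)) i)
        (· * ·)) (· * ·))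

end

/-- a sweep of graph moves -/
theorem gs_gs (d : Deck X Γ) {g₀ : Fld n X} (S : Gs F g₀ g v Q) (hw : ∀ j, Rs F (w j)) (m : ℕ)
    (ha : Rn F fun o x i => a o i x) (ca : ∀ o, CC ∞ (a o)) :
    Gs F g₀ (fun o => gs (g o) (fun j => w j o) m) a fun o x =>
      Q o x + ∑ j ∈ range m, a2 (gs (g o) (fun j => w j o) j) (w j o) x :=
  have r := rn_gs d S.rg fun j => (hw j).toRn
  have s := fun o => met_gs (S.met o) fun j => (hw j).sm o
  ⟨⟨r m, ha, fun o => s o m, ca⟩, rs_add S.rq ⟨rn_sum _ fun j _ => rn_a2 d (r j) (hw j).toRn,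
    fun o => CD.sum fun j _ => sm_a2 (s o j) ((hw j).sm o)⟩,
    fun o => (S.gi o).gs (fun j => (hw j).sm o) m⟩

/-- **DRIFT** for random fields -/
theorem driftF : ∃ C ≥ (1 : ℝ), ∀ (n : ℕ) (X Γ : Type) [Mf0 n X] [Group Γ] [MulAction Γ X],
    Deck X Γ → ∀ (F : Fr Γ) (g : F.Ω → Fld n X) (w : ℕ → F.Ω → X → ℝ) (m : ℕ) (q c α r₀ : ℝ),
    1 ≤ n → Rn F g → (∀ o, Met (g o)) → (∀ j, Rs F (w j)) → (∀ j o x, 0 < w j o x) → 0 ≤ q →
    q ≤ 1 → 0 < c → C * n * c ≤ 1 → 0 < α → C * α ≤ 1 → 0 < r₀ →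
    ∃ a : F.Ω → Fin n → X → ℝ, (Rn F fun o x i => a o i x) ∧ ∀ o, CC ∞ (a o) ∧
    ∀ t : ℕ → X → ℝ, (t = fun j => w j o) → ∀ v : Fin n → X → ℝ, CC ∞ v → ∀ (x : X) (l : ℝ),
      α ≤ l → l ≤ 1 → Rv (gs (g o) t m) v x + (if aa (g o) t m x ≤ 4 * α then
          c * aa (g o) t m x ^ 2 / (4 * n * P210R.rr r₀ t m x) else 0) -
        (∑ j ∈ range m, hq q (gs (g o) t j) (t j) x) / 2 -
        l * ∑ j ∈ range m, P210R.yy (gs (g o) t j) (t j) x ^ 2 -
        l * ∑ j ∈ range m, Dv (gs (g o) t m) v (nv (gs (g o) t j) (t j)) x ^ 2 -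
        C * (c + c ^ 2 / l) * α * ip (gs (g o) t m) (ff r₀ t m) (ff r₀ t m) x ≤
      Rv (gs (g o) t m) (fun i y => v i y + a o i y) x := by
  obtain ⟨C, C1, κ, h⟩ := drift_x
  refine ⟨C, C1, fun n X Γ _ _ _ d F g w m q c α r₀ hn rg hg hw w0 q0 q1 c0 c1 α0 α1 hr =>
    ⟨_, rn_da d rg (fun j => (hw j).toRn) (rn_cst 1) κ c α r₀ m, fun o => ?_⟩⟩
  obtain ⟨a, b⟩ := h n X (g o) (fun j => w j o) m (fun _ => 1) q c α r₀ hn (hg o)
    (fun j => (hw j).sm o) (fun j => w0 j o) cd_const (by simp) q0 q1 c0 c1 α0 α1 hr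
  refine ⟨a, fun t e v hv x l l0 l1 => ?_⟩
  have := b v hv x l l0 l1
  subst e
  rwa [ip_const_left, mul_zero, sub_zero, one_mul] at this

/-- **MIX** for random fields -/
theorem mixF {G : F.Ω → Fld n X} {t p : ℕ → F.Ω → X → ℝ} {m : ℕ} {Y : F.Ω → X → ℝ} {r₀ d η : ℝ}
    (hG : ∀ o, Met (G o)) (ht : ∀ j, Rs F (t j)) (t0 : ∀ j o x, 0 < t j o x)
    (rp : ∀ j, Rn F (p j)) (hp : ∀ o, Dis (fun j => p j o) m) (hY : Rs F Y)
    (Y0 : ∀ o x, 0 < Y o x) (r0 : 0 < r₀) (d0 : 0 < d) (η1 : η ≤ 1) (hd : 8 * m * d ≤ η * √r₀) :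
    ∃ K : ℕ → F.Ω → X → ℝ, (∀ j, Rn F (K j)) ∧ ∀ o, Dis (fun j => K j o) m ∧
      (∀ j x, K j o x ≠ 0 → j < m ∧ (d < t j o x ∨ p j o x ≠ 0)) ∧ ∀ R : X → ℝ,
      R = P210R.rr r₀ (fun j => t j o) m → ∀ x,
      (∀ j < m, K j o x ≤ (1 + η) * ((t j o x ^ 2 + (r₀ + Y o x) * p j o x) / (R x + Y o x))) ∧
      En (G o) (fun j => K j o) m x ≤ (1 + η) *
        ((∑ j ∈ range m, ip (G o) (t j o) (t j o) x + fi (G o) (Y o) x) / (R x + Y o x) -
        ip (G o) (fun y => R y + Y o y) (fun y => R y + Y o y) x / (4 * (R x + Y o x) ^ 2) +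
        (r₀ + Y o x) / (R x + Y o x) * En (G o) (fun j => p j o) m x) := by
  obtain ⟨ζ, h⟩ := mix_x (n := n) (M := X) r0 d0
  have a := rn_map₂ (rn_rr (fun j => (ht j).toRn) r₀ m) hY.toRn (· + ·)
  have b : ∀ j, Rn F fun o => mL ζ r₀ (fun j => t j o) (fun j => p j o) m (Y o) j := fun j =>
    rn_map₂ (rn_map₂ (ht j).toRn a fun a b => ζ (a / √b) ^ 2)
      (rn_map₂ (rn_map₂ a hY.toRn fun a b => a⁻¹ * (r₀ + b)) (rp j) (· * ·)) (· + ·)
  refine ⟨fun j o => if j < m then mK ζ r₀ (fun j => t j o) (fun j => p j o) m (Y o) j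
    else fun _ => 0, fun j => ?_, fun o => ?_⟩
  · by_cases k : j < m
    · simp only [if_pos k]
      exact rn_map₂ (rn_sum _ fun j _ => b j) (b j) fun a b => a⁻¹ * b
    · simp only [if_neg k]
      exact rn_cst 0
  obtain ⟨hK, z, h⟩ := h (G o) _ _ m (Y o) η (hG o) (fun j => (ht j).sm o) (fun j => t0 j o) (hp o)
    (hY.sm o) (Y0 o) η1 hd
  beta_reduce
  generalize mK ζ r₀ (fun j => t j o) (fun j => p j o) m (Y o) = K at *
  have e : ∀ j ∈ range m, (if j < m then K j else fun _ => 0) = K j := fun j hj =>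
    if_pos (mem_range.1 hj)
  refine ⟨⟨fun j => ?_, fun j x => ?_, fun x => ?_⟩, fun j x k => ?_, fun R eR x =>
    ⟨fun j hj => ?_, ?_⟩⟩
  · split_ifs
    exacts [hK.sm j, cd_const]
  · split_ifs
    exacts [hK.nn j x, le_rfl]
  · rw [sum_congr rfl fun j hj => by rw [e j hj], hK.one]
  · split_ifs at k with hj
    · exact ⟨hj, by by_contra! c; exact k (z j x c.1 c.2)⟩
    · exact absurd rfl k
  · simpa only [if_pos hj, eR] using (h x).1 j
  · rw [eR]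
    refine le_of_eq_of_le ?_ (h x).2
    exact sum_congr rfl fun j hj => by simp only [e j hj]

/-- the mass which is moved to the fallback distribution -/
theorem rn_mixY {t W : ℕ → F.Ω → X → ℝ} (ht : ∀ j, Rn F (t j)) (hW : ∀ j, Rn F (W j)) (m : ℕ)
    (r₀ s α δ e : ℝ) : Rn F fun o y => 2 * δ * (∑ j ∈ range m, W j o y * t j o y ^ 2 + e) * s *
      P210R.rr r₀ (fun j => t j o) m y / (α * (s + P210R.rr r₀ (fun j => t j o) m y)) :=
  rn_map₂ (rn_sum (range m) fun j _ => rn_map₂ (hW j) (ht j) fun a b => a * b ^ 2)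
    (rn_rr ht r₀ m) fun a b => 2 * δ * (a + e) * s * b / (α * (s + b))

end Vale.Agent.P223Q
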