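import Vale.Agent.P223A.Defs
import Vale.Agent.P223T.Pos
import Vale.Agent.P223T.Deck
import Vale.Agent.P223F.Mt
import Vale.Agent.P223D.Deg
import Vale.Agent.P223R.Loc
import Vale.Agent.P210U.Loc
import Vale.Agent.P366H.Fn

/-!
# P223Q: large curvature where the mass is small
-/

open MeasureTheory Filter Topology Set
open scoped ContDiff
open Vale.Agent.P366M Vale.Agent.P366M.Gr
open Vale.Agent.P366D (Rf Sec smooth_comp)
open Vale.Agent.P366H (DD DD_ge s1 s1_nn s1_le s1_zero hd0 sm_st)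
open Vale.Agent.P210G Vale.Agent.P223Y Vale.Agent.P223F Vale.Agent.P223A Vale.Agent.P223T
open Vale.Agent.P210L (closeup sec_down)
open Vale.Agent.P210R (fi)

noncomputable section

namespace Vale.Agent.P223Q

variable {n : ℕ} {X : Type} [Mf0 n X] {g : Fld n X} {P : X → ℝ} {O K V : Set X} {a ε : ℝ} {x : X}

theorem sec_spec {X' : Type} [Mf0 n X'] {π : X' → X} {σ : X → X'} {g' : Fld n X'}
    (h : Sec π σ g g' V) (hVO : V ⊆ O) (hs : Spec g P a O) :
    Spec g' (fun x => P (π x)) a (σ '' V) := fun ζ h1 h2 h3 => by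
  classical
  have cπ : Continuous π := continuous_iff_continuousAt.2 fun x => (h.sm x).ct
  have hV : π '' (σ '' V) = V := by
    rw [image_image, (image_congr h.rt).trans (image_id' V)]
  have b1 : Function.support (V.indicator fun z => ζ (σ z)) ⊆ π '' tsupport ζ := fun z hz => by
    have hz' := support_indicator_subset hz
    rw [Function.mem_support, indicator_of_mem hz'] at hz
    exact ⟨σ z, subset_tsupport _ hz, h.rt z hz'⟩
  have b2 := closure_minimal b1 (h2.image cπ).isClosed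
  have b3 : tsupport (V.indicator fun z => ζ (σ z)) ⊆ V :=
    b2.trans ((image_mono h3).trans hV.le)
  have b4 : Smooth (V.indicator fun z => ζ (σ z)) := cd_of_cAt le_rfl fun z => by
    by_cases hz : z ∈ V
    · exact ((h.sms z hz).cAt le_rfl h1.contDiffAt).congr_of_eventuallyEq
        (eventually_of_mem (h.opn.mem_nhds hz) fun _ k => indicator_of_mem k _)
    · exact cAt_const.congr_of_eventuallyEq (notMem_tsupport_iff_eventuallyEq.1 fun k => hz (b3 k))
  have b5 := hs _ b4 ((h2.image cπ).of_isClosed_subset (isClosed_tsupport _) b2) (b3.trans hVO)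
  have hU := h.isOpen h.opn subset_rfl
  rw [← setIntegral_eq_integral_of_forall_compl_eq_zero (s := π '' (σ '' V)) (fun z hz => by
      have q := fun k => hz (hV.ge (b3 k))
      simp only [ip, pd_zero_of_notMem q, image_eq_zero_of_notMem_tsupport q]
      simp), integral_iso hU.measurableSet
    (by rintro _ ⟨z, hz, rfl⟩; exact h.iso z hz) (by
      rintro _ ⟨z, hz, rfl⟩ _ ⟨z', hz', rfl⟩ e
      rw [h.rt z hz, h.rt z' hz'] at e
      rw [e])] at b5
  rw [← setIntegral_eq_integral_of_forall_compl_eq_zero (s := σ '' V) fun x hx => by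
    have q := fun k => hx (h3 k)
    simp [ip, pd_zero_of_notMem q, image_eq_zero_of_notMem_tsupport q]]
  refine b5.trans_eq (setIntegral_congr_fun hU.measurableSet ?_)
  rintro _ ⟨z, hz, rfl⟩
  have e : ζ =ᶠ[𝓝 (σ z)] fun x => V.indicator (fun z => ζ (σ z)) (π x) := by
    filter_upwards [h.lf z hz, (h.sm _).ct.eventually (h.opn.mem_nhds (by rwa [h.rt z hz]))]
      with x a b
    rw [indicator_of_mem b, a]
  simp only
  rw [(h.iso z hz).ip (b4.diff _) (b4.diff _) e e, (h.iso z hz).scal, e.self_of_nhds]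

/-- **the spectral bound gives a gradient drift near a compact set** -/
theorem grad_spec (h : Spec g P 4 O) (hn : 0 < n) (hg : Met g) (hP : Smooth P) (hO : IsOpen O)
    (hK : IsCompact K) (hKO : K ⊆ O) (hε : 0 < ε) :
    ∃ f, Smooth f ∧ ∀ x ∈ K, P x - ε ≤ Rf g f x := by
  rcases K.eq_empty_or_nonempty with rfl | hne
  · exact ⟨fun _ => 0, cd_const, by simp⟩
  obtain ⟨X', _, _, π, σ, V, a, b, s⟩ := closeup hg hK hO hKO hne
  obtain ⟨l, l1, l2⟩ := grad_of_spec (θ := 0) (by simpa using sec_spec s b h) hn bg_met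
    (smooth_comp s.sm hP) (by norm_num) (s.isOpen s.opn subset_rfl)
    (hK.image_of_continuousOn (s.contOn.mono a)) (image_mono a) hε
  obtain ⟨l', p, q⟩ := sec_down s hK a l1
  refine ⟨l', p, fun z hz => ?_⟩
  have := l2 _ ⟨z, hz, rfl⟩
  rw [(s.iso z (a hz)).Rf (p.c2 _) (q z hz).2, s.rt z (a hz)] at this
  linarith

/-- **localisation** with the Fisher information of a partition of unity -/
theorem Rv_fi (hg : Met g) {ι : Type} (s : Finset ι) {a : ι → X → ℝ} {V : ι → Fin n → X → ℝ}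
    (ha : ∀ k, DAt (a k) x) (a0 : ∀ k y, 0 ≤ a k y) (hV : ∀ k, DV (sh g (V k)) x)
    (h1 : ∀ᶠ y in 𝓝 x, ∑ k ∈ s, a k y = 1) :
    ∑ k ∈ s, a k x * Rv g (V k) x - 4 * ∑ k ∈ s, fi g (a k) x ≤
      Rv g (fun i y => ∑ k ∈ s, a k y * V k i y) x := by
  rw [Rv_comb hg s ha hV h1.self_of_nhds]
  set m : Fin n → X → ℝ := fun i y => ∑ k ∈ s, a k y * V k i y with hm
  have q1 : ∑ k ∈ s, 1 * iv g (df (a k)) m x = 0 := by
    rw [← iv_sum s (a := fun _ _ => 0) fun i => by
      simp only [one_mul, df]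
      rw [← pd_sum s fun k _ => ha k, pd_congr (h := fun _ => 1) h1, pd_const]]
    simp [iv]
  have q2 : iv g m m x = ∑ k ∈ s, a k x * iv g (V k) m x := iv_sum s (fun _ => rfl) m
  have q3 : ∀ k, 0 ≤ a k x * iv g (V k) (V k) x - 2 * (a k x * iv g (V k) m x) +
      a k x * iv g m m x + 2 * iv g (df (a k)) (V k) x - 2 * (1 * iv g (df (a k)) m x) +
      4 * fi g (a k) x := fun k => by
    rcases (a0 k x).eq_or_lt with e | e
    · have := pd_of_isLocalMin (Eventually.of_forall fun y => e.symm.trans_le (a0 k y))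
      simp [← e, fi, iv, df, this]
    have r1 := iv_nonneg hg (fun i y => a k x * (V k i y - m i y) + 1 * df (a k) i y) x
    rw [iv_sq hg (b := fun i y => V k i y - m i y) (c := df (a k)) fun _ => rfl,
      iv_sq hg (s := 1) (t := -1) (b := V k) (c := m) fun _ => by ring,
      iv_lin (s := 1) (t := -1) (a := fun i y => V k i y - m i y) (b := V k) (c := m)
        fun _ => by ring, iv_df, iv_sy hg (V k) (df _), iv_sy hg m (df _)] at r1
    refine nonneg_of_mul_nonneg_right (r1.trans_eq ?_) e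
    rw [fi]
    field_simp
    ring
  have q4 := Finset.sum_nonneg fun k (_ : k ∈ s) => q3 k
  simp only [Finset.sum_add_distrib, Finset.sum_sub_distrib, ← Finset.mul_sum, ← Finset.sum_mul,
    h1.self_of_nhds, ← q2] at q4 q1
  linarith

variable {Γ : Type} [Group Γ] [MulAction Γ X] {F : Fr Γ}

theorem inv_eq {W : Type} {σ : F.Ω → X → W} (h : Inv Γ σ) (γ : Γ) (o : F.Ω) :
    σ o = fun z => σ (γ • o) (γ • z) := funext fun z => (h γ o z).symm

/-- **localisation in the frame** -/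
theorem ims (d : Deck X Γ) (hK : IsCompact K) {g : F.Ω → Fld n X} {a f : F.Ω → X → ℝ}
    (hg : Rn F g) (met : ∀ o, Met (g o)) (ha : Amp F K g a ε) (tf : Tr f)
    (sf : ∀ o, Smooth (f o)) : ∃ v, Sta F g v ∧ ∀ o x p,
      (∀ γ : Γ, γ • x ∈ K → p ≤ Rf (g (γ • o)) (f (γ • o)) (γ • x)) →
        p - 4 * ε ^ 2 ≤ Rv (g o) (v o) x := by
  obtain ⟨u, hu⟩ : ∃ u : F.Ω → X → Fin n → ℝ, u = fun o x i => a o x * -pd i (f o) x := ⟨_, rfl⟩
  have cs : Cs u K := fun o x hx => by simp [hu, ha.cs o x hx]; rfl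
  have tu : Tr u := hu ▸ ha.pu.tr.map₂ (tf.of_germ (τ := fun o x i => pd i (f o) x)
    fun _ _ _ e => funext fun i => pd_congr e i) fun _ s t i => s * -t i
  have sa : ∀ (γ : Γ) o, Smooth (lb γ a o) := fun γ o => d.smooth (ha.pu.sm _) γ
  have sl : ∀ (γ : Γ) o, Smooth (lb γ f o) := fun γ o => d.smooth (sf _) γ
  have cl : ∀ (γ : Γ) o, CC ∞ fun i y => -pd i (lb γ f o) y := fun γ o => CC.neg (sl γ o).cc_pd
  have ev : ∀ o x, ∃ T : Finset Γ, ∀ᶠ y in 𝓝 x, (∀ γ ∉ T, lb γ a o y = 0) ∧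
      ∑ γ ∈ T, lb γ a o y = 1 ∧ ∀ i, (∑ᶠ γ : Γ, lb γ u o y) i =
        ∑ γ ∈ T, lb γ a o y * -pd i (lb γ f o) y := fun o x => by
    obtain ⟨T, hT⟩ := ev_fin d hK x
    refine ⟨T, hT.mono fun y k => ?_⟩
    have z : ∀ γ ∉ T, lb γ a o y = 0 := fun γ q => ha.cs _ _ fun m => q (k γ m)
    refine ⟨z, ?_, fun i => ?_⟩
    · rw [← ha.pu.sum o y, finsum_eq_sum_of_support_subset (s := T) _ fun γ e =>
        by_contra fun q => e (z γ q)]
    · rw [finsum_eq_sum_of_support_subset (s := T) (fun γ : Γ => lb γ u o y) fun γ e =>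
        by_contra fun q => e (cs _ _ fun m => q (k γ m)), Finset.sum_apply]
      exact Finset.sum_congr rfl fun γ _ => by
        rw [show lb γ f o = fun z => f (γ⁻¹ • o) (γ⁻¹ • z) from rfl, (d.cm γ⁻¹).pd, hu]; rfl
  refine ⟨fun o i x => (∑ᶠ γ : Γ, lb γ u o x) i, ⟨hg, ⟨(tu.fam d hK cs).map fun _ t => ∑ᶠ γ, t γ,
    inv_finsum u⟩, met, fun o => P210U.cc_loc fun x => ?_⟩, fun o x p h => ?_⟩
  · obtain ⟨T, hT⟩ := ev o x
    exact ⟨_, CC.sum (s := T) fun γ _ => CC.smul (sa γ o) (cl γ o), fun i => hT.mono fun y k => k.2.2 i⟩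
  obtain ⟨T, hT⟩ := ev o x
  have k := Rv_fi (met o) T (fun γ => (sa γ o).diff x) (fun γ y => ha.nn _ _)
    (fun γ => dV_sh (met o) (cl γ o) x) (hT.mono fun y k => k.2.1)
  rw [Rv_congr fun i => hT.mono fun y k => k.2.2 i]
  have k1 := ha.en o x
  rw [finsum_eq_sum_of_support_subset (s := T) _ fun γ e => by_contra fun q => e (by
    simp [fi, hT.self_of_nhds.1 γ q])] at k1
  have k2 : ∑ γ ∈ T, lb γ a o x * p ≤ ∑ γ ∈ T, lb γ a o x *
      Rv (g o) (fun i y => -pd i (lb γ f o) y) x := Finset.sum_le_sum fun γ _ => by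
    by_cases q : γ⁻¹ • x ∈ K
    · refine mul_le_mul_of_nonneg_left ?_ (ha.nn _ _)
      rw [Rv_neg_df ((sl γ o).c2 x), inv_eq hg.inv γ⁻¹ o]
      exact (h _ q).trans_eq (congrFun ((d.cm γ⁻¹).Rf _ _) x).symm
    · simp [lb, ha.cs _ _ q]
  rw [← Finset.sum_mul, hT.self_of_nhds.2.1] at k2
  linarith

theorem sm_dr {g₀ : Fld n X} (h₀ : Met g₀) (hg : Met g) : Smooth (dr g₀ g) := by
  let : Mf n X := ⟨g₀, h₀⟩
  exact hg.sm_dens

theorem dr_pos {g₀ : Fld n X} (h₀ : Met g₀) (hg : Met g) (x : X) : 0 < dr g₀ g x :=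
  div_pos (Real.sqrt_pos.2 (hg.det_pos x)) (Real.sqrt_pos.2 (h₀.det_pos x))

theorem integral_dr {g₀ : Fld n X} (h₀ : Met g₀) (hg : Met g) (hO : MeasurableSet O) (f : X → ℝ) :
    ∫ x in O, f x ∂vol g = ∫ x in O, f x * dr g₀ g x ∂vol g₀ := by
  simpa only [mul_div_cancel_right₀ _ (Real.sqrt_pos.2 (hg.det_pos _)).ne', dr, mul_div_assoc] using
    P223D.integral_vol_eq hg h₀ hO fun x => f x * √(mat g x).det

theorem inv_Rv (d : Deck X Γ) {g : F.Ω → Fld n X} {v : F.Ω → Fin n → X → ℝ} (h : Sta F g v) :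
    Inv Γ fun o => Rv (g o) (v o) := fun γ o x => by
  have e : v o = fun i z => v (γ • o) i (γ • z) :=
    funext fun i => funext fun z => (congrFun (h.rv.inv γ o z) i).symm
  beta_reduce
  rw [inv_eq h.rg.inv γ o, e]
  exact (congrFun ((d.cm γ).Rv _ _) x).symm

/-- bounds for the weight `χ` give bounds on compact sets -/
theorem loc_mass {g₀ : Fld n X} {χ : X → ℝ} (G : Geo Γ g₀ χ) (hK : IsCompact K) : ∃ N : ℕ,
    ∀ (Φ : F.Ω → X → ℝ) (A : F.Ω → Set X) (c : ℝ), Inv Γ Φ → (∀ o, Continuous (Φ o)) →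
      (∀ o x, 0 ≤ Φ o x) → Inv Γ (fun o x => x ∈ A o) → (∀ o, MeasurableSet (A o)) →
      (∀ o, ∫ x in A o, χ x * Φ o x ∂vol g₀ ≤ c) → ∀ o K', IsCompact K' → K' ⊆ K ∩ A o →
        ∫ x in K', Φ o x ∂vol g₀ ≤ N * c := by
  have d := G.deck
  have h₀ := G.riem.met
  obtain ⟨T, hT⟩ : ∃ T : Finset Γ, ∀ x ∈ K, ∑ γ ∈ T, χ (γ⁻¹ • x) = 1 :=
    ⟨(proper d G.wt.cs.isCompact hK).toFinset, fun x hx =>
      (finsum_eq_sum_of_support_subset (fun γ : Γ => tl γ χ x) fun γ e => by
        rw [Finite.coe_toFinset]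
        exact ⟨γ⁻¹ • x, subset_tsupport _ e, by rwa [smul_inv_smul]⟩).symm.trans (G.wt.sum x)⟩
  refine ⟨T.card, fun Φ A c iΦ cΦ p iA mA h o K' c' s => ?_⟩
  have it : ∀ γ : Γ, Integrable (fun x => χ (γ⁻¹ • x) * Φ o x) (vol g₀) := fun γ =>
    h₀.integrable_supp ((d.smooth G.wt.sm γ).cont.mul (cΦ o)) (supp_mul_right (d.cs G.wt.cs γ))
  rw [← nsmul_eq_mul, ← Finset.sum_const, setIntegral_congr_fun c'.measurableSet
    (g := fun x => ∑ γ ∈ T, χ (γ⁻¹ • x) * Φ o x) fun x hx => by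
      simp only [← Finset.sum_mul, hT x (s hx).1, one_mul],
    integral_finsetSum T fun γ _ => (it γ).integrableOn]
  refine Finset.sum_le_sum fun γ _ => (setIntegral_mono_set (t := A o) (it γ).integrableOn
    (.of_forall fun x => mul_nonneg (G.wt.nn _) (p o x))
    (HasSubset.Subset.eventuallyLE fun x hx => (s hx).2)).trans (le_trans (le_of_eq ?_) (h (γ⁻¹ • o)))
  rw [← integral_indicator (mA _), ← integral_indicator (mA _), ← d.integral_smul h₀ G.inv γ]
  refine integral_congr_ae (.of_forall fun x => ?_)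
  have e1 := iA γ (γ⁻¹ • o) x
  have e2 := iΦ γ (γ⁻¹ • o) x
  simp only [smul_inv_smul] at e1 e2
  classical
  simp only [indicator_apply, e1, e2, inv_smul_smul]

theorem Rf_of_ev {g' : Fld n X} {f : X → ℝ} (e : g =ᶠ[𝓝 x] g') : Rf g f x = Rf g' f x := by
  unfold Rf
  rw [scal_of_ev e, lap_of_ev e, ip_of_eq e.eq_of_nhds]

/-- **POS** -/
theorem pos (hn : 3 ≤ n) : POS n := by
  intro s hs X Γ _ _ _ g₀ χ G F K hK δ hδ P
  have d := G.deck
  have h₀ := G.riem.met
  have hD := DD_ge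
  obtain ⟨y, y0, sob⟩ := sob_deck hn d h₀ G.inv G.wt
  obtain ⟨C, cur⟩ := cur_deck d h₀ G.inv G.wt
  obtain ⟨η, η0, ms⟩ := spec_mass hn y0 hδ hs C (P + 3)
  obtain ⟨K₁, c1, s1'⟩ := exists_compact_superset hK
  obtain ⟨N, hN⟩ := loc_mass (F := F) G c1
  refine ⟨min (η / (N + 1)) (1 / (10 * DD)), by positivity,
    fun ε Λ g v Q a lam ε0 εc Λ0 S A L hl hm => ?_⟩
  generalize hc : min (η / (N + 1)) (1 / (10 * DD)) = c at *
  have c2 : 10 * DD * c ≤ 1 := (le_div_iff₀' (by positivity)).1 (hc ▸ min_le_right _ _)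
  have c3 : (N + 1) * c ≤ η := (le_div_iff₀' (by positivity)).1 (hc ▸ min_le_left _ _)
  have c0 := ε0.trans_le εc
  have cl := fun o => (L.sm o).cont
  have cR := fun o => (sm_Rv (S.met o) (S.cc o)).cont
  have cQ := fun o => (S.rq.sm o).cont
  have H : ∀ o, ∃ f, Smooth f ∧ ∀ x ∈ K ∩ {x | 3 * Λ / 10 ≤ lam o x}, P + 3 - 1 ≤ Rf (g o) f x :=
    fun o => grad_spec (O := interior K₁ ∩ {x | Λ / 4 < lam o x}) (P := fun _ => P + 3)
      (ms X g₀ (g o) (Q o) (fun x => Rv (g o) (v o) x - δ * Q o x) _ h₀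
        (sob.mono le_rfl (subset_univ _)) (fun g Q k x _ => cur g Q k x trivial) (S.gi o) (cQ o)
        ((cR o).sub (continuous_const.mul (cQ o)))
        (by simpa using P223R.spec_Rv (S.met o) (S.cc o)) fun K' k1 k2 => by
          rw [integral_dr h₀ (S.met o) k1.measurableSet]
          simp only [← neg_mul]
          refine (hN (fun o => md s δ g₀ (g o) (v o) (Q o)) (fun o => {x | Λ / 4 ≤ lam o x}) c
            (fun γ o x => ?_) (fun o => (continuous_const.mul ((cR o).sub (continuous_const.mul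
              (cQ o)))).rexp.mul (sm_dr h₀ (S.met o)).cont)
            (fun o x => mul_nonneg (Real.exp_pos _).le (dr_pos h₀ (S.met o) x).le)
            (fun γ o x => by simp only [mem_setOf_eq, L.inv γ o x])
            (fun o => (isClosed_le continuous_const (cl o)).measurableSet) hm o K' k1
            fun x hx => ⟨interior_subset (k2 hx).1, (show Λ / 4 < lam o x from (k2 hx).2).le⟩).trans
              (by linarith)
          have := inv_Rv d S.toSta γ o x
          simp only [md, dr, mat, G.inv, S.rg.inv γ o x, S.rq.inv γ o x] at this ⊢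
          rw [this])
      (by omega) (S.met o) cd_const (isOpen_interior.inter (isOpen_lt continuous_const (cl o)))
      (hK.inter_right (isClosed_le continuous_const (cl o)))
      (fun x hx => ⟨s1' hx.1, (show Λ / 4 < 3 * Λ / 10 by linarith).trans_le hx.2⟩) one_pos
  choose f sf hf using H
  obtain ⟨r, r1, r2⟩ := (S.rg.tr.prod L.tr).rep c1 isClopen_univ
  obtain ⟨w, W, hw⟩ := ims d hK S.rg S.met A (tr_lc r1 f) fun o => sf _
  obtain ⟨β, hβ⟩ : ∃ β : ℝ → ℝ, β = fun t => Real.pi / 2 * Real.smoothTransition (5 / Λ * t - 3 / 2) :=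
    ⟨_, rfl⟩
  have sβ : ∀ o, Smooth fun x => β (lam o x) := fun o =>
    (show ContDiff ℝ ∞ β by have := sm_st; rw [hβ]; fun_prop).compM (L.sm o)
  refine ⟨fun o i x => Real.sin (β (lam o x)) ^ 2 * w o i x + Real.cos (β (lam o x)) ^ 2 * v o i x,
    ⟨S.rg, ⟨(L.tr.prod (W.rv.tr.prod S.rv.tr)).map fun _ t i =>
      Real.sin (β t.1) ^ 2 * t.2.1 i + Real.cos (β t.1) ^ 2 * t.2.2 i, fun γ o x => funext fun i => by
        simp only [L.inv γ o x, congrFun (W.rv.inv γ o x) i, congrFun (S.rv.inv γ o x) i]⟩, S.met,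
      fun o => (CC.smul (CD.pow (Real.contDiff_sin.compM (sβ o)) 2) (W.cc o)).add
        (CC.smul (CD.pow (Real.contDiff_cos.compM (sβ o)) 2) (S.cc o))⟩, fun o x => ?_⟩
  have k := Rv_sin (S.met o) ((sβ o).diff x) (dV_sh (S.met o) (W.cc o) x)
    (dV_sh (S.met o) (S.cc o) x)
  have k1 : 4 * ip (g o) (fun x => β (lam o x)) (fun x => β (lam o x)) x ≤ 1 := by
    have dβ : HasDerivAt β (Real.pi / 2 * (s1 (5 / Λ * lam o x - 3 / 2) * (5 / Λ))) (lam o x) := by
      rw [hβ]
      exact (((hd0 _).comp (lam o x) (((hasDerivAt_id _).const_mul (5 / Λ)).sub_const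
        (3 / 2))).const_mul (Real.pi / 2)).congr_deriv (by simp)
    have p := s1_nn (5 / Λ * lam o x - 3 / 2)
    have : gn (g o) (fun x => β (lam o x)) x ≤ 1 / 2 := by
      rw [gn_comp dβ ((L.sm o).diff x), abs_of_nonneg (by positivity)]
      rcases le_total 1 (5 / Λ * lam o x - 3 / 2) with q | q
      · simp [s1_zero (.inr q)]
      have q1 : 5 / Λ * gn (g o) (lam o) x ≤ c * (5 / 2) := by
        nlinarith [mul_le_mul_of_nonneg_left (hl o x).2 (show 0 ≤ 5 / Λ by positivity)]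
      have q2 := mul_le_mul (s1_le (5 / Λ * lam o x - 3 / 2)) q1
        (mul_nonneg (by positivity) (gn_nonneg _ _ _)) (by positivity)
      have q3 := mul_nonneg p (mul_nonneg (show 0 ≤ 5 / Λ by positivity)
        (gn_nonneg (g o) (lam o) x))
      nlinarith [Real.pi_le_four]
    rw [← (S.met o).gn_sq]
    nlinarith [gn_nonneg (g o) (fun x => β (lam o x)) x]
  have k2 : 3 * Λ / 10 ≤ lam o x → P + 1 ≤ Rv (g o) (w o) x := fun q => by
    have := hw o x (P + 3 - 1) fun γ m => by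
      have e := (r2 (γ • o)).2
      rw [← Rf_of_ev (g := g (r (γ • o))) (mem_of_superset (mem_interior_iff_mem_nhds.1
        (s1' m)) fun z k => congrArg Prod.fst (e z k))]
      refine hf _ _ ⟨m, ?_⟩
      rwa [mem_setOf_eq, show lam (r (γ • o)) (γ • x) = lam (γ • o) (γ • x) from
        congrArg Prod.snd (e _ (interior_subset (s1' m))), L.inv]
    have : ε ≤ 1 / 10 := by nlinarith
    nlinarith
  have e := Real.sin_sq_add_cos_sq (β (lam o x))
  refine ⟨?_, fun q => ?_⟩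
  · rcases le_total (3 * Λ / 10) (lam o x) with q | q
    · linear_combination k + k1 + mul_le_mul_of_nonneg_left ((min_le_right (Rv (g o) (v o) x)
        P).trans (by linarith [k2 q] : P ≤ Rv (g o) (w o) x)) (sq_nonneg (Real.sin (β (lam o x)))) +
        mul_le_mul_of_nonneg_left (min_le_left (Rv (g o) (v o) x) P)
          (sq_nonneg (Real.cos (β (lam o x)))) - min (Rv (g o) (v o) x) P * e
    · have : β (lam o x) = 0 := by
        rw [hβ]
        simp only
        rw [Real.smoothTransition.zero_of_nonpos, mul_zero]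
        rw [sub_nonpos, div_mul_eq_mul_div, div_le_iff₀ Λ0]
        linarith
      rw [this, Real.sin_zero, Real.cos_zero] at k
      linarith [min_le_left (Rv (g o) (v o) x) P]
  · have : β (lam o x) = Real.pi / 2 := by
      rw [hβ]
      simp only
      rw [Real.smoothTransition.one_of_one_le, mul_one]
      rw [le_sub_iff_add_le, div_mul_eq_mul_div, le_div_iff₀ Λ0]
      linarith
    rw [this, Real.sin_pi_div_two, Real.cos_pi_div_two] at k
    linarith [k2 (by linarith)]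

end Vale.Agent.P223Q
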