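import Vale.Agent.P210R.Sweep
import Vale.Agent.P210D.Alg
import Vale.Agent.P210V.MixB

/-!
# P223Q: the inequality of a sweep at one point
-/

open Filter Topology Set Finset
open scoped ContDiff
open Vale.Agent.P366M Vale.Agent.P366M.Gr Vale.Agent.P366M.Y.C Vale.Agent.P210G Vale.Agent.P210R

noncomputable section

namespace Vale.Agent.P223Q

theorem consts2 {n A C : ℝ} (hn : 1 ≤ n) (hA : 1 ≤ A) (hC : 0 ≤ C) : ∃ c > (0 : ℝ), ∃ δ > (0 : ℝ),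
    ∃ a : ℝ, 32 * δ ≤ a ∧ 4 * A * δ ≤ a ∧ a ≤ 1 / 100 ∧ 1000 * a ^ 2 ≤ δ * (c / (4 * n)) ∧
    c / (4 * n) ≤ 1 ∧ C * n * c ≤ 1 ∧ C * (c + c ^ 2 / (δ / 400)) ≤ 1 / 4 := by
  obtain ⟨c, c0, δ, δ0, a, -, k2, k3, k4, k5, k6, -, k8⟩ :=
    consts (A := 8 * A) (C := C) hn (by linarith)
  refine ⟨c, c0, δ, δ0, a, by nlinarith, by nlinarith, k3, k4, k5, k6, ?_⟩
  have e : c ^ 2 / (δ / 400) = 4 * (c ^ 2 / (δ / 100)) := by field_simp; ring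
  have p : 0 ≤ C * (c ^ 2 / (δ / 100)) := by positivity
  have : C * (c + c ^ 2 / (δ / 100)) ≤ 1 / 16 := by nlinarith
  rw [e]
  nlinarith [mul_nonneg hC c0.le]

theorem in_alg2 {S₀ R₁ R₂ Hq P b Z Zs Y H G γ α L δ a θ η E' Br μ E₁ E T X' VK Λs D₁ e₂ : ℝ}
    (h1 : S₀ + Hq / 2 + Zs + P + (2 * δ - δ ^ 2 - 2 * θ / a) * b + a / 2 * Z + 6 / 5 * a * Y + D₁ ≤
      R₁)
    (h2 : R₁ + G - Hq / 2 - δ / 400 * Y - δ / 400 * H - γ * α * L ≤ R₂)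
    (h3 : H ≤ 8 * P + 32 * b + 17 * Zs + e₂) (h4 : E' ≤ (1 + η) * (Br + μ * E₁))
    (h5 : α * Br ≤ α * T - α / 2 * L + 8 * δ * Z + 2 * δ * θ * b + Λs) (h6 : E₁ ≤ E) (μ0 : 0 ≤ μ)
    (h7 : VK ≤ (1 + η) * X') (s0 : 0 ≤ Zs) (b0 : 0 ≤ b) (Z0 : 0 ≤ Z) (Y0 : 0 ≤ Y) (L0 : 0 ≤ L)
    (e0 : 0 ≤ e₂) (α0 : 0 < α) (δ0 : 0 < δ) (k1 : 32 * δ ≤ a) (k3 : a ≤ 1 / 100) (hγ : γ ≤ 1 / 4)
    (η0 : 0 ≤ η) (η1 : η ≤ 1 / 10) (hθ : θ ≤ a * δ / 100) :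
    S₀ + G + (1 - δ / 50) * P + 9 / 5 * δ * b + a * Y + D₁ - e₂ -
      (1 + η) * (α * T + (2 - δ) * α * X' + α * (μ * E) + Λs) ≤ R₂ - α * (E' + (2 - δ) * VK) := by
  have a0 : 0 < a := by linarith
  have e1 : 0 ≤ 1 + η := by linarith
  obtain ⟨-, j2, -⟩ := in_co δ0 (by linarith) k3 η0 η1 hθ
  have i1 := mul_le_mul_of_nonneg_left h4 α0.le
  have i2 := mul_le_mul_of_nonneg_left h5 e1
  have i3 := mul_le_mul_of_nonneg_left h6 (mul_nonneg (mul_nonneg e1 α0.le) μ0)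
  have i4 := mul_le_mul_of_nonneg_left h7 (mul_nonneg α0.le (show 0 ≤ 2 - δ by linarith))
  have i5 := mul_le_mul_of_nonneg_left h3 δ0.le
  have i6 := mul_le_mul_of_nonneg_right (show γ ≤ (1 + η) / 2 by linarith) (mul_nonneg α0.le L0)
  have i7 := mul_le_mul_of_nonneg_right (show (1 + η) * 8 * δ ≤ a / 2 by nlinarith) Z0
  have i8 := mul_le_mul_of_nonneg_right j2 b0
  have i9 := mul_le_mul_of_nonneg_right (show a + δ / 400 ≤ 6 / 5 * a by linarith) Y0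
  have i10 := mul_le_mul_of_nonneg_right (show δ ≤ 1 by linarith) s0
  have i11 := mul_le_mul_of_nonneg_right (show δ ≤ 1 by linarith) e0
  linarith

variable {n : ℕ} {X : Type} [Mf0 n X]

/-- **the inequality of a sweep at one point** -/
theorem swf_pt {g : Fld n X} {v v₁ v₂ : Fin n → X → ℝ} {t W V K p K' : ℕ → X → ℝ} {m : ℕ} {x : X}
    {r₀ s α δ a c A θ Λ Λ' E B e η γ P D Z e₁ e₂ Lk r S A₀ Xs b Y : ℝ} {Ψ : X → ℝ}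
    (hg : Met g) (ht : ∀ j, Smooth (t j)) (hW : ∀ j, Smooth (W j)) (W0 : ∀ j y, 0 ≤ W j y)
    (gW : ∀ j < m, ip (gs g t m) (W j) (W j) x ≤ W j x * (θ * W j x ^ 2 + Λ))
    (r0 : 0 < r₀) (s0 : 0 < s) (α0 : 0 < α) (δ0 : 0 < δ) (k1 : 32 * δ ≤ a) (A0 : 0 ≤ A)
    (k2 : 4 * A * δ ≤ a) (k3 : a ≤ 1 / 100) (k4 : 1000 * a ^ 2 ≤ δ * (c / (4 * n)))
    (k5 : c / (4 * n) ≤ 1) (c0 : 0 ≤ c) (k7 : γ ≤ 1 / 4) (θ0 : 0 ≤ θ) (hθ : θ ≤ a * δ / 100)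
    (Λ0 : 0 ≤ Λ) (Λ1 : Λ ≤ Λ') (E0 : 0 ≤ E) (EB : E ≤ B) (hE : En (gs g t m) p m x ≤ E) (e0 : 0 < e)
    (e1 : e ≤ α) (η0 : 0 ≤ η) (η1 : η ≤ 1 / 10) (s3 : 10000 * s * B ≤ δ * α)
    (hr : r = rr r₀ t m x) (hS : S = ∑ j ∈ range m, (1 - uu (gs g t j) (t j) x ^ 2))
    (hA : A₀ = aa g t m x) (hX : Xs = ∑ j ∈ range m, W j x * t j x ^ 2)
    (hb : b = ∑ j ∈ range m, (W j x * t j x) ^ 2) (hY : Y = ∑ j ∈ range m, yy (gs g t j) (t j) x ^ 2)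
    (i1 : tt g t m x ≤ S) (i2 : A₀ ≤ S) (i3 : S ≤ 2 * A₀) (i4 : Xs ^ 2 ≤ b * r)
    (i5 : A₀ ^ 2 ≤ Y * r) (i7 : 0 ≤ P)
    (i8 : 0 ≤ (1 - a) * A₀ + (1 - δ) * Xs + α * (s - r) / (2 * s) →
      ((1 - a) * A₀ + (1 - δ) * Xs + α * (s - r) / (2 * s)) ^ 2 ≤ P * r)
    (i9 : D ≤ 2 * Λ' / a * r) (i10 : D ≤ α / (4 * s) * (S + Xs)) (Z0 : 0 ≤ Z) (e2 : 0 ≤ e₂)
    (i11 : ∑ j ∈ range m, Dv (gs g t m) v₁ (nv (gs g t j) (t j)) x ^ 2 ≤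
      8 * P + 32 * b + 17 * Z + e₂)
    (i12 : SS δ α V g v K m x + (∑ j ∈ range m, hq (1 - a) (gs g t j) (t j) x) / 2 + Z + P +
      (2 * δ - δ ^ 2 - 2 * θ / a) * b + a / 2 * ∑ j ∈ range m, W j x * ip (gs g t m) (t j) (t j) x +
      6 / 5 * a * Y + α / s * S + (2 - δ) * α * Xs / s - D - e₁ + Lk ≤ Rv (gs g t m) v₁ x)
    (dr : Rv (gs g t m) v₁ x + (if aa g t m x ≤ 4 * α then
          c * aa g t m x ^ 2 / (4 * n * rr r₀ t m x) else 0) -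
        (∑ j ∈ range m, hq (1 - a) (gs g t j) (t j) x) / 2 -
        δ / 400 * ∑ j ∈ range m, yy (gs g t j) (t j) x ^ 2 -
        δ / 400 * ∑ j ∈ range m, Dv (gs g t m) v₁ (nv (gs g t j) (t j)) x ^ 2 -
        γ * α * ip (gs g t m) (ff r₀ t m) (ff r₀ t m) x ≤ Rv (gs g t m) v₂ x)
    (hΨ : Ψ = fun y => 2 * δ * (∑ j ∈ range m, W j y * t j y ^ 2 + e) * s * rr r₀ t m y /
      (α * (s + rr r₀ t m y)))
    (m1 : ∀ j < m, K' j x ≤ (1 + η) * ((t j x ^ 2 + (r₀ + Ψ x) * p j x) / (rr r₀ t m x + Ψ x)))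
    (m2 : En (gs g t m) K' m x ≤ (1 + η) *
      ((∑ j ∈ range m, ip (gs g t m) (t j) (t j) x + fi (gs g t m) Ψ x) / (rr r₀ t m x + Ψ x) -
        ip (gs g t m) (fun y => rr r₀ t m y + Ψ y) (fun y => rr r₀ t m y + Ψ y) x /
          (4 * (rr r₀ t m x + Ψ x) ^ 2) + (r₀ + Ψ x) / (rr r₀ t m x + Ψ x) * En (gs g t m) p m x))
    (K0 : ∀ j < m, 0 ≤ K' j x)
    (hV : ∀ j < m, K' j x ≠ 0 → (p j x = 0 ∧ V j x ≤ W j x) ∨ V j x = 0) :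
    SS δ α V g v K m x + A * δ * (tt g t m x ^ 2 / rr r₀ t m x) +
      (if rr r₀ t m x ≤ 3 / 4 * s then δ / 2000 * α ^ 2 / s else 0) - (4 / a + 4) * s * Λ' -
      δ * s * E ^ 2 - (η * α * m / r₀ + 20 * η ^ 2 * α ^ 2 / (δ * r₀) + 4 * α * r₀ * B / s +
        4 * δ * e * B + e₁ + e₂) + Lk ≤ SS δ α V (gs g t m) v₂ K' m x := by
  subst hr hS hA hX hb hY
  have hG := P210D.met_gs hg ht m
  obtain ⟨-, Yp, -, mb⟩ := P210V.mixB n X (gs g t m) t W m r₀ s α δ e θ Λ x hG ht hW W0 r0 s0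
    α0 δ0 e0 θ0 Λ0 gW Ψ hΨ
  have rl : r₀ ≤ rr r₀ t m x := le_add_of_nonneg_right (sum_nonneg fun _ _ => sq_nonneg _)
  have rp := r0.trans_le rl
  have T0 : 0 ≤ tt g t m x := sum_nonneg fun _ _ => hG.ip_nonneg _ x
  have G0 : 0 ≤ if aa g t m x ≤ 4 * α then c * aa g t m x ^ 2 / (4 * n * rr r₀ t m x) else 0 := by
    split_ifs
    exacts [by positivity, le_rfl]
  obtain ⟨z, hz⟩ : ∃ z, z = 2 * δ * (∑ j ∈ range m, W j x * t j x ^ 2 + e) * s /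
    (α * (s + rr r₀ t m x)) := ⟨_, rfl⟩
  have Yz : Ψ x = z * rr r₀ t m x := by rw [hΨ, hz]; ring
  have Rz : rr r₀ t m x + Ψ x = rr r₀ t m x * (1 + z) := by rw [Yz]; ring
  have Rp : 0 < rr r₀ t m x + Ψ x := add_pos rp (Yp x)
  have b0 : 0 ≤ ∑ j ∈ range m, (W j x * t j x) ^ 2 := sum_nonneg fun _ _ => sq_nonneg _
  have vk : ∑ j ∈ range m, V j x * K' j x ≤
      (1 + η) * ((∑ j ∈ range m, W j x * t j x ^ 2) / (rr r₀ t m x + Ψ x)) := by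
    rw [sum_div, mul_sum]
    refine sum_le_sum fun j k => ?_
    have W0 := W0 j x
    have k := mem_range.1 k
    by_cases k1 : K' j x = 0
    · rw [k1, mul_zero]; positivity
    rcases hV j k k1 with ⟨k2, k3⟩ | k2
    · have k4 := m1 j k
      rw [k2, mul_zero, add_zero] at k4
      refine (mul_le_mul k3 k4 (K0 j k) W0).trans_eq ?_
      ring
    · rw [k2, zero_mul]; positivity
  have Tm : tt g t m x ≤ m := i1.trans (by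
    simpa using sum_le_card_nsmul (range m) (fun j => 1 - uu (gs g t j) (t j) x ^ 2) 1
      fun j _ => sub_le_self _ (sq_nonneg _))
  have al := P210D.alg _ s α δ a (c / (4 * n)) Λ' _ B e η r₀ m A _ _ _ _ _ P _ D _ z r0 rl s0 α0
    δ0 (by linarith) A0 k2 k3 k4 k5 (Λ0.trans Λ1) E0 EB e0.le e1 η0 η1 s3 T0 i1 Tm i2 i3
    (sum_nonneg fun j _ => mul_nonneg (W0 j x) (sq_nonneg _)) b0 i4 i5 i7 i8 i9 i10 G0
    (fun k => by rw [if_pos k]; exact le_of_eq (by ring)) hz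
  have fin := in_alg2 (D₁ := α / s * ∑ j ∈ range m, (1 - uu (gs g t j) (t j) x ^ 2) +
    (2 - δ) * α * (∑ j ∈ range m, W j x * t j x ^ 2) / s - D - e₁ + Lk)
    (S₀ := SS δ α V g v K m x) (by linarith) dr i11 m2 mb hE
    (div_nonneg (add_pos r0 (Yp x)).le Rp.le) vk Z0 b0
    (sum_nonneg fun j _ => mul_nonneg (W0 j x) (hG.ip_nonneg _ x))
    (sum_nonneg fun _ _ => sq_nonneg _) (hG.ip_nonneg _ x) e2 α0 δ0 k1 k3 k7 η0 η1 hθ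
  rw [Rz, Yz] at fin
  have := mul_le_mul_of_nonneg_left Λ1 (show 0 ≤ (1 + η) * (2 * δ * s) by positivity)
  rw [SS, SS] at *
  unfold tt at *
  linarith

end Vale.Agent.P223Q
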