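import Vale.Agent.P223Q.Dm
import Vale.Agent.P223Q.Pt
import Vale.Agent.P223W.Defs
import Vale.Agent.P210W.Sw1

/-!
# P223Q: one sweep in the frame
-/

open Filter Topology Set Finset
open scoped ContDiff
open Vale.Agent.P366M Vale.Agent.P366M.Gr Vale.Agent.P366M.Y.C Vale.Agent.P210G Vale.Agent.P210R
open Vale.Agent.P210U (Up)
open Vale.Agent.P210S (up_refl up_trans ip_mono)
open Vale.Agent.P210W (up_gb)
open Vale.Agent.P223T (GI)
open Vale.Agent.P223Y Vale.Agent.P223F Vale.Agent.P223A Vale.Agent.P223W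

noncomputable section

namespace Vale.Agent.P223Q

variable {n : ℕ} {X : Type} [Mf0 n X] {Γ : Type} [Group Γ] [MulAction Γ X] {F : Fr Γ}

theorem gi_up {g₀ g : Fld n X} {Q : X → ℝ} (h : GI g₀ g Q) : Up g₀ g := by
  induction h with
  | base => exact up_refl _
  | step _ _ ih => exact up_trans ih (up_gb _ _)
  | mono _ _ ih => exact ih

theorem exists_rec {Ω S A : Type} (I : (Ω → Fld n X) → S → Prop)
    (P : ℕ → (Ω → Fld n X) → S → (Ω → X → ℝ) → S → A → Prop)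
    (H : ∀ j g v, I g v → ∃ t v' a, I (fun o => gb (g o) 1 (t o)) v' ∧ P j g v t v' a)
    {g : Ω → Fld n X} {v : S} (h0 : I g v) :
    ∃ (t : ℕ → Ω → X → ℝ) (vs : ℕ → S) (a : ℕ → A), vs 0 = v ∧ ∀ j,
      P j (fun o => gs (g o) (fun i => t i o) j) (vs j) (t j) (vs (j + 1)) (a j) := by
  choose T V' a h1 h2 using H
  let σ : ℕ → {p : (Ω → Fld n X) × S // I p.1 p.2} := fun j => Nat.rec ⟨(g, v), h0⟩
    (fun j p => ⟨(fun o => gb (p.1.1 o) 1 (T j _ _ p.2 o), V' j _ _ p.2), h1 j _ _ p.2⟩) j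
  have e : ∀ j, (fun o => gs (g o) (fun j => T j _ _ (σ j).2 o) j) = (σ j).1.1 := fun j => by
    induction j with
    | zero => rfl
    | succ j ih => funext o; rw [gs, congrFun ih o]
  refine ⟨fun j => T j _ _ (σ j).2, fun j => (σ j).1.2, fun j => a j _ _ (σ j).2, rfl, fun j => ?_⟩
  rw [e]
  exact h2 j _ _ (σ j).2

/-- the recursion over the colours -/
theorem sw1F (D : Deck X Γ) {g₀ : Fld n X} {Λ θ a α s η d : ℝ} {U : ℕ → F.Ω → Set X}
    {V K : ℕ → F.Ω → X → ℝ} {m : ℕ} {g : F.Ω → Fld n X} {v : F.Ω → Fin n → X → ℝ} (h₀ : Met g₀)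
    (S : Sta F g v) (up : ∀ o, Up g₀ (g o)) (hK : Dr F K m)
    (H : ∀ j < m, ∀ g v, Sta F g v → (∀ o, Up g₀ (g o)) → ∃ (h' ε : ℝ) (W w : F.Ω → X → ℝ)
      (v' : F.Ω → Fin n → X → ℝ), Rn F W ∧ Rn F w ∧ Rn F (fun o x i => v' o i x) ∧ ∀ o,
        Aps g₀ Λ (U j o) (V j o) (K j o) θ a (α / (2 * s)) s η d (g o) (v o) h' ε (W o) (w o) (v' o)) :
    ∃ (h' ε : ℕ → ℝ) (W t : ℕ → F.Ω → X → ℝ) (vs : ℕ → F.Ω → Fin n → X → ℝ), vs 0 = v ∧
      (∀ j, Rn F (W j) ∧ Rn F (t j) ∧ Rn F (fun o x i => vs j o i x) ∧ ∀ o, CC ∞ (vs j o)) ∧ ∀ o,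
      Swq g₀ Λ (U · o) (V · o) (K · o) m θ a α s η d (g o) h' ε (W · o) (t · o) (vs · o) := by
  obtain ⟨t, vs, b, e0, hb⟩ := exists_rec (A := ℝ × ℝ × (F.Ω → X → ℝ))
    (fun g v => Sta F g v ∧ ∀ o, Up g₀ (g o))
    (fun j g v t v' b => (Rn F b.2.2 ∧ Rn F t ∧ Sta F g v) ∧ ∀ o, (Smooth (t o) ∧ (∀ x, 0 < t o x) ∧
      Smooth (b.2.2 o) ∧ ∀ x, 0 ≤ b.2.2 o x) ∧ (j < m → Aps g₀ Λ (U j o) (V j o) (K j o) θ a
        (α / (2 * s)) s η d (g o) (v o) b.1 b.2.1 (b.2.2 o) (t o) (v' o)))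
    (fun j g v ⟨h1, h2⟩ => by
      by_cases k : j < m
      · obtain ⟨h', ε, W, w, v', r1, r2, r3, P⟩ := H j k g v h1 h2
        exact ⟨w, v', (h', ε, W), ⟨⟨rn_gb D h1.rg r2, r3, fun o => met_g (h1.met o) (P o).smw,
          fun o => (P o).cc⟩, fun o => up_trans (h2 o) (up_gb _ _)⟩, ⟨r1, r2, h1⟩,
          fun o => ⟨⟨(P o).smw, (P o).w0, (P o).smW, (P o).W0⟩, fun _ => P o⟩⟩
      · exact ⟨fun _ _ => 1, v, (0, 0, fun _ _ => 0), ⟨⟨rn_gb D h1.rg (rn_cst 1), h1.rv,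
          fun o => met_g (h1.met o) cd_const, h1.cc⟩, fun o => up_trans (h2 o) (up_gb _ _)⟩,
          ⟨rn_cst 0, rn_cst 1, h1⟩, fun o => ⟨⟨cd_const, fun _ => one_pos, cd_const,
            fun _ => le_rfl⟩, fun k' => (k k').elim⟩⟩) (g := g) (v := v) ⟨S, up⟩
  exact ⟨fun j => (b j).1, fun j => (b j).2.1, fun j => (b j).2.2, t, vs, e0, fun j =>
    ⟨(hb j).1.1, (hb j).1.2.1, (hb j).1.2.2.rv, (hb j).1.2.2.cc⟩, fun o => ⟨h₀, S.met o, up o,
      (hb 0).1.2.2.cc o, hK.dis o, fun j => ((hb j).2 o).1.1, fun j => ((hb j).2 o).1.2.1,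
      fun j => ((hb j).2 o).1.2.2.1, fun j => ((hb j).2 o).1.2.2.2, fun j => ((hb j).2 o).2⟩⟩

/-- **SWF** -/
theorem swf (hn : 1 ≤ n) (hI : INN) : SWF n := by
  intro A A1
  obtain ⟨C₁, hC₁, hD⟩ := driftF
  have n1 : (1 : ℝ) ≤ n := by exact_mod_cast hn
  obtain ⟨c, c0, δ, δ0, a, k1, k2, k3, k4, k5, k6, k7⟩ := consts2 (C := C₁) n1 A1 (by linarith)
  have a0 : 0 < a := by linarith
  refine ⟨δ, δ0, by linarith, δ / 2000, by positivity, a * δ / 100, by positivity, 4 / a + 4,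
    by positivity, min (δ / 400) (1 / C₁), by positivity, a / 16, by positivity, by linarith, ?_⟩
  intro X Γ _ _ _ D F g₀ Λ U V p m E B α hg₀ Λ0 hV hF hp sp hE α0 hα
  have α1 : α ≤ δ / 400 := hα.trans (min_le_left _ _)
  have α2 : C₁ * α ≤ 1 := by
    rw [mul_comm]; exact (le_div_iff₀ (by positivity)).1 (hα.trans (min_le_right _ _))
  have tβ : Tendsto (fun s : ℝ => α / (2 * s)) (𝓝[>] 0) atTop := by
    simp only [← div_div, div_eq_mul_inv (α / 2)]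
    exact tendsto_inv_nhdsGT_zero.const_mul_atTop (half_pos α0)
  obtain ⟨s₀, s0, hs⟩ := mem_nhdsGT_iff_exists_Ioc_subset.1
    ((tβ.eventually ((eventually_all_finset (range m)).2 fun j k =>
      hF j (mem_range.1 k) a a0 k3)).and
    ((small (f := fun s => 64 * s ^ 2 * Λ) (b := α ^ 2) (by fun_prop) (by simp; positivity)).and
    ((small (f := fun s => 8 * s) (b := α) (by fun_prop) (by simpa)).and
    (small (f := fun s => 10000 * s * B) (b := δ * α) (by fun_prop) (by simp; positivity)))))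
  refine ⟨s₀, s0, fun s s0 s1 η η0 => ?_⟩
  obtain ⟨s1, s2, s4, s3⟩ := hs ⟨s0, s1⟩
  obtain ⟨r₀, r0, r1, r2⟩ := small_ex
    ((small (f := fun r => r) (b := s / 16) (by fun_prop) (by positivity)).and
    (small (f := fun r => 4 * α * r * B / s) (b := η / 8) (by fun_prop) (by simpa using η0)))
  refine ⟨r₀, r0, r1, fun d d0 g v Q K h S hK sK hE' => ?_⟩
  obtain ⟨e, e0, e1, e2⟩ := small_ex
    ((small (f := fun e => e) (b := α) (by fun_prop) α0).and
    (small (f := fun e => 4 * δ * e * B) (b := η / 8) (by fun_prop) (by simpa using η0)))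
  obtain ⟨η₁, p0, p1, p2, p3⟩ := small_ex
    ((small (f := fun e => e) (b := 1 / 10) (by fun_prop) (by norm_num)).and
    ((small (f := fun e => e * α * m / r₀) (b := η / 8) (by fun_prop) (by simpa using η0)).and
    (small (f := fun e => 20 * e ^ 2 * α ^ 2 / (δ * r₀)) (b := η / 8) (by fun_prop)
      (by simpa using η0))))
  obtain ⟨η₂, q0, q1, q2, q3⟩ := small_ex
    ((small (f := fun e => 2 * (m : ℝ) ^ 2 * e) (b := 1) (by fun_prop) (by simp)).and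
    ((small (f := fun e => 2 * m * α * e / s + m * e) (b := η / 8) (by fun_prop)
      (by simpa using η0)).and
    (small (f := fun e => (2 * m + 2 * (m : ℝ) ^ 3) * e) (b := η / 8) (by fun_prop)
      (by simpa using η0))))
  obtain ⟨d₂, d1, d2, d3⟩ := small_ex
    ((small (f := fun e => e) (b := d) (by fun_prop) d0).and
    (small (f := fun e => 8 * m * e) (b := η₁ * √r₀) (by fun_prop) (by simp; positivity)))
  have pV : ∀ j o x, p j o x ≠ 0 → V j o x = 0 := fun j o x k =>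
    (sp j o x k).2.antisymm (hV j o x (sp j o x k).1)
  have up := fun o => gi_up (S.gi o)
  obtain ⟨h', ε, W, t, vs, rfl, R, Z⟩ := sw1F D hg₀ S.toSta up hK fun j k g v b1 b2 =>
    s1 j (mem_range.2 k) (K j) h s η₂ d₂ g v ⟨hK.rn j, fun o => (hK.dis o).sm j⟩
      (fun o => (hK.dis o).nn j) (sK j) s0 q0 d1 b1 b2
  have rt : ∀ j, Rs F (t j) := fun j => ⟨(R j).2.1, fun o => (Z o).smt j⟩
  obtain ⟨b, rb, hb⟩ := hD n X Γ D F g t m (1 - a) c α r₀ hn S.rg S.met rt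
    (fun j o => (Z o).t0 j) (by linarith) (by linarith) c0 k6 α0 α2 r0
  have hG := fun o => P210D.met_gs (S.met o) (Z o).smt m
  have u1 := fun o => up_gs (g o) (t · o) m
  have gW := fun o x j k => (ip_mono hg₀ (hG o) (up_trans (up o) (u1 o)) _ x).trans
    (((Z o).aps j k).gW x)
  have mb := fun o x => P210V.mixB n X _ _ _ m r₀ s α δ e _ Λ x (hG o) (Z o).smt (Z o).smW (Z o).W0
    r0 s0 α0 δ0 e0 (by positivity) Λ0 (gW o x) _ rfl
  obtain ⟨K', rK, hK'⟩ := mixF hG rt (fun j o => (Z o).t0 j) hp.rn hp.dis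
    ⟨rn_mixY (fun j => (R j).2.1) (fun j => (R j).1) m r₀ s α δ e,
      fun o => P210U.sm_loc fun x => ⟨_, (mb o x).1, EventuallyEq.rfl⟩⟩
    (fun o x => (mb o x).2.1 x) r0 d1 (by linarith : η₁ ≤ 1) d3
  have z : ∀ j o x, K' j o x ≠ 0 → p j o x = 0 → x ∈ U j o ∧ V j o x ≤ h' j := fun j o x k k' => by
    obtain ⟨jm, k⟩ := (hK' o).2.1 j x k
    by_contra c
    exact (((Z o).aps j jm).out x c).not_gt (k.resolve_right fun c => c k')
  refine ⟨t, fun o i y => vs m o i y + b o i y, _, K', ∑ j ∈ range m, |h' j|, rt, gs_gs D S rt m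
    (rn_map₂ (R m).2.2.1 rb fun a b i => a i + b i) fun o => ((R m).2.2.2 o).add (hb o).1,
    ⟨rK, fun o => (hK' o).1⟩, fun j o x k => ?_, fun j k o x => ⟨(Z o).t0 j x, fun c =>
      (((Z o).aps j k).out x fun c' => c c'.1).trans d2⟩, fun o T hT x => ?_⟩
  · by_cases k' : p j o x = 0
    · exact ⟨(z j o x k k').1, (z j o x k k').2.trans ((le_abs_self _).trans (single_le_sum
        (f := fun j => |h' j|) (fun _ _ => abs_nonneg _) (mem_range.2 ((hK' o).2.1 j x k).1)))⟩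
    · exact ⟨(sp j o x k').1, (sp j o x k').2.trans (sum_nonneg fun _ _ => abs_nonneg _)⟩
  subst hT
  obtain ⟨i1, i2, i3, i4, i5, -, P, D', Z', i7, z0, i8, i9, i10, i11, i12⟩ := hI n X g₀ Λ _ _ _ m _ a
    α s η₂ d₂ _ h' ε _ _ _ δ r₀ x (Z o) a0 k3 δ0 (by linarith) α0 s0 (by positivity) r0.le Λ0 s2 s4
    q0.le q1 _ _ _ _ _ _ rfl rfl rfl rfl rfl rfl
  have := swf_pt (S.met o) (Z o).smt (Z o).smW (Z o).W0 (gW o x) r0 s0 α0 δ0 k1 (by linarith) k2 k3
    k4 k5 c0.le k7 (by positivity) le_rfl Λ0 (le_add_of_nonneg_right zero_le_one) (hE o x).1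
    (hE o x).2 ((P210V.REn_anti (u1 o) (S.met o) (hG o) fun j => (hp.dis o).nn j x).trans (hE' o x))
    e0 e1 p0.le p1 s3 rfl rfl rfl rfl rfl rfl i1 i2 i3 i4 i5 i7 i8 i9 i10 z0 (by positivity) i11
    ((add_assoc _ _ _).symm.trans_le i12)
    ((hb o).2 _ rfl _ ((R m).2.2.2 o) x (δ / 400) α1 (by linarith)) rfl
    ((hK' o).2.2 _ rfl x).1 ((hK' o).2.2 _ rfl x).2 (fun j _ => (hK' o).1.nn j x) fun j k k' => by
      by_cases c : p j o x = 0
      · exact .inl ⟨c, ((Z o).aps j k).new x (z j o x k' c).1 (z j o x k' c).2⟩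
      · exact .inr (pV j o x c)
  beta_reduce
  rw [add_sub_cancel_left]
  linarith

end Vale.Agent.P223Q
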